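import Vale.Agent.Grid.Pinned

open Vale.Agent.Grid

/-- For dense subsets of affine images of integer grids in `ℝ^d`, every point sees at least
`c δ² n^(2/d)` distinct distances, with `c` depending only on `d`. -/
theorem Vale.Agent.Results.P054.DenseGridPinned.result :
    ∀ d : ℕ, 3 ≤ d → ∃ c : ℝ, 0 < c ∧
      ∀ (δ : ℝ) (t : ℕ) (o : EuclideanSpace ℝ (Fin d))
        (v : Fin d → EuclideanSpace ℝ (Fin d)), LinearIndependent ℝ v →
      ∀ P : Finset (EuclideanSpace ℝ (Fin d)),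
        (∀ p ∈ P, ∃ x : Fin d → ℤ,
          (∀ i, 0 ≤ x i ∧ x i < (t : ℤ)) ∧ p = o + ∑ i, (x i : ℝ) • v i) →
        2 ≤ P.card → 0 < δ → δ * (t : ℝ) ^ d ≤ (P.card : ℝ) →
        ∀ p ∈ P, c * δ ^ 2 * (P.card : ℝ) ^ ((2 : ℝ) / d) ≤
          (((P.erase p).image fun q => dist p q).card : ℝ) := by
  intro d hd
  set K : ℝ := (3 * 21 ^ d + 7 ^ d * (2 * d * 3 ^ (d - 1))) * 2 ^ (2 * d - 2) with hK
  have hK0 : 0 < K := by positivity
  refine ⟨1 / (4 * K), by positivity, ?_⟩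
  intro δ t o v hv P hP hn hδ hdens p hp
  have hcard : P.card ≤ t ^ d := card_le_pow t o P hP
  have ht : 1 ≤ t := by
    rcases Nat.eq_zero_or_pos t with h | h
    · rw [h, zero_pow (by omega)] at hcard
      omega
    · exact h
  have ht' : (1 : ℝ) ≤ t := by exact_mod_cast ht
  have hcs := sq_le_four_mul_pinned t o P hP hn hp
  have hpairs : ((pairs (gram v) (2 * t)).card : ℝ) ≤ K * (t : ℝ) ^ (2 * d - 2) := by
    refine (pairs_le (gram_injective hv) (by omega) (by omega)).trans ?_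
    have h1 := invSq_le hd (2 * t)
    have h2 : (((2 * t : ℕ) : ℝ)) ^ d * invSq d (2 * t) ≤
        2 * d * 3 ^ (d - 1) * ((2 * t : ℕ) : ℝ) ^ (2 * d - 2) := by
      calc (((2 * t : ℕ) : ℝ)) ^ d * invSq d (2 * t)
          ≤ ((2 * t : ℕ) : ℝ) ^ d * (2 * d * 3 ^ (d - 1) * ((2 * t : ℕ) : ℝ) ^ (d - 2)) :=
            mul_le_mul_of_nonneg_left h1 (by positivity)
        _ = 2 * d * 3 ^ (d - 1) * (((2 * t : ℕ) : ℝ) ^ d * ((2 * t : ℕ) : ℝ) ^ (d - 2)) := by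
            ring
        _ = _ := by rw [← pow_add]; congr 2; omega
    calc _ ≤ (3 * 21 ^ d + 7 ^ d * (2 * d * 3 ^ (d - 1))) *
          ((2 * t : ℕ) : ℝ) ^ (2 * d - 2) := by
          rw [mul_assoc ((7 : ℝ) ^ d), add_mul, mul_assoc ((7 : ℝ) ^ d)]
          gcongr
      _ = K * (t : ℝ) ^ (2 * d - 2) := by
          rw [hK]; push_cast; rw [mul_pow]; ring
  set N : ℝ := (P.card : ℝ) with hN
  set M : ℝ := (((P.erase p).image fun q => dist p q).card : ℝ) with hM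
  have hM0 : 0 ≤ M := by positivity
  have hN0 : 0 ≤ N := by positivity
  have h3 : δ ^ 2 * (t : ℝ) ^ 2 * (t : ℝ) ^ (2 * d - 2) ≤
      4 * K * M * (t : ℝ) ^ (2 * d - 2) := by
    calc δ ^ 2 * (t : ℝ) ^ 2 * (t : ℝ) ^ (2 * d - 2) = (δ * (t : ℝ) ^ d) ^ 2 := by
          rw [mul_assoc, ← pow_add, mul_pow, ← pow_mul]; congr 2; omega
      _ ≤ N ^ 2 := by gcongr
      _ ≤ 4 * M * (K * (t : ℝ) ^ (2 * d - 2)) :=
          hcs.trans (mul_le_mul_of_nonneg_left hpairs (by positivity))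
      _ = 4 * K * M * (t : ℝ) ^ (2 * d - 2) := by ring
  have h4 : δ ^ 2 * (t : ℝ) ^ 2 ≤ 4 * K * M := le_of_mul_le_mul_right h3 (by positivity)
  have hpow : N ^ ((2 : ℝ) / d) ≤ (t : ℝ) ^ 2 := by
    calc N ^ ((2 : ℝ) / d) ≤ ((t : ℝ) ^ d) ^ ((2 : ℝ) / d) := by
          refine Real.rpow_le_rpow hN0 ?_ (by positivity)
          rw [hN]; exact_mod_cast hcard
      _ = (t : ℝ) ^ ((d : ℝ) * ((2 : ℝ) / d)) := by
          rw [← Real.rpow_natCast, ← Real.rpow_mul (by positivity)]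
      _ = (t : ℝ) ^ (2 : ℝ) := by
          congr 1; field_simp
      _ = (t : ℝ) ^ 2 := Real.rpow_two _
  calc 1 / (4 * K) * δ ^ 2 * N ^ ((2 : ℝ) / d) ≤ 1 / (4 * K) * δ ^ 2 * (t : ℝ) ^ 2 := by gcongr
    _ = 1 / (4 * K) * (δ ^ 2 * (t : ℝ) ^ 2) := by ring
    _ ≤ 1 / (4 * K) * (4 * K * M) := by gcongr
    _ = M := by field_simp
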