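import Vale.Agent.P054.Homog.Count

/-!
Homogeneous point sets with few points on a line have a pin with `R D ^ d ≥ c n ^ 2`.
-/

namespace Vale.Agent.Results.P054.HomogeneousFewCollinear

open Finset EuclideanGeometry

/-- Part one is every dimension, part two is dimension three, where equidistant triples are never
collinear. -/
theorem result :
    (∀ d : ℕ, 2 ≤ d → ∀ K : ℕ, ∃ C : ℕ, 0 < C ∧
      ∀ (P : Finset (EuclideanSpace ℝ (Fin d))) (o : Fin d → ℝ) (L : ℝ) (g R : ℕ),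
        2 ≤ P.card → 0 < L → 1 ≤ g → g ^ d ≤ P.card →
        (∀ p ∈ P, ∀ i, o i ≤ p i ∧ p i < o i + L) →
        (∀ a : Fin d → ℝ, {p ∈ (P : Set (EuclideanSpace ℝ (Fin d))) |
          ∀ i, a i ≤ p i ∧ p i < a i + L / g}.ncard ≤ K) →
        (∀ s ⊆ P, Collinear ℝ (s : Set (EuclideanSpace ℝ (Fin d))) → s.card ≤ R) →
        (∀ f : Fin d → EuclideanSpace ℝ (Fin d), Function.Injective f → (∀ i, f i ∈ P) →
          ∀ p ∈ P, (∀ i j, dist p (f i) = dist p (f j)) → AffineIndependent ℝ f) →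
        ∃ p ∈ P, P.card ^ 2 ≤ C * R * (dist p '' ((P : Set _) \ {p})).ncard ^ d) ∧
    (∀ K : ℕ, ∃ C : ℕ, 0 < C ∧
      ∀ (P : Finset (EuclideanSpace ℝ (Fin 3))) (o : Fin 3 → ℝ) (L : ℝ) (g R : ℕ),
        2 ≤ P.card → 0 < L → 1 ≤ g → g ^ 3 ≤ P.card →
        (∀ p ∈ P, ∀ i, o i ≤ p i ∧ p i < o i + L) →
        (∀ a : Fin 3 → ℝ, {p ∈ (P : Set (EuclideanSpace ℝ (Fin 3))) |
          ∀ i, a i ≤ p i ∧ p i < a i + L / g}.ncard ≤ K) →
        (∀ s ⊆ P, Collinear ℝ (s : Set (EuclideanSpace ℝ (Fin 3))) → s.card ≤ R) →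
        ∃ p ∈ P, P.card ^ 2 ≤ C * R * (dist p '' ((P : Set _) \ {p})).ncard ^ 3) := by
  classical
  have main : ∀ d : ℕ, 2 ≤ d → ∀ K : ℕ, ∃ C : ℕ, 0 < C ∧
      ∀ (P : Finset (EuclideanSpace ℝ (Fin d))) (o : Fin d → ℝ) (L : ℝ) (g R : ℕ),
        2 ≤ P.card → 0 < L → 1 ≤ g → g ^ d ≤ P.card →
        (∀ p ∈ P, ∀ i, o i ≤ p i ∧ p i < o i + L) →
        (∀ a : Fin d → ℝ, {p ∈ (P : Set (EuclideanSpace ℝ (Fin d))) |
          ∀ i, a i ≤ p i ∧ p i < a i + L / g}.ncard ≤ K) →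
        (∀ s ⊆ P, Collinear ℝ (s : Set (EuclideanSpace ℝ (Fin d))) → s.card ≤ R) →
        (∀ f : Fin d → EuclideanSpace ℝ (Fin d), Function.Injective f → (∀ i, f i ∈ P) →
          ∀ p ∈ P, (∀ i j, dist p (f i) = dist p (f j)) → AffineIndependent ℝ f) →
        ∃ p ∈ P, P.card ^ 2 ≤ C * R * (dist p '' ((P : Set _) \ {p})).ncard ^ d := by
    intro d hd K
    obtain ⟨C, hC, h⟩ := Vale.Agent.P054.Homog.exists_pin (d := d) hd K
    refine ⟨C, hC, fun P o L g R hn hL hg hgd hbox hK hline hind => ?_⟩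
    have hK' : ∀ a : Fin d → ℝ, (P.filter fun p : EuclideanSpace ℝ (Fin d) =>
        ∀ i, a i ≤ p i ∧ p i < a i + L / g).card ≤ K := fun a => by
      refine le_trans (le_of_eq ?_) (hK a)
      rw [← Set.ncard_coe_finset, coe_filter]
      rfl
    obtain ⟨p, hp, hle⟩ := h P o L g R hn hL hg hgd hbox hK' hline hind
    refine ⟨p, hp, hle.trans (le_of_eq ?_)⟩
    rw [← Set.ncard_coe_finset]
    congr 3
    ext x
    simp [and_comm]
  refine ⟨main, fun K => ?_⟩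
  obtain ⟨C, hC, h⟩ := main 3 (by norm_num) K
  refine ⟨C, hC, fun P o L g R hn hL hg hgd hbox hK hline => h P o L g R hn hL hg hgd hbox hK hline
    fun f hf _ p _ hdist => ?_⟩
  exact Cospherical.affineIndependent (s := Set.range f)
    ⟨p, dist p (f 0), by rintro _ ⟨i, rfl⟩; rw [dist_comm]; exact hdist i 0⟩ subset_rfl hf

end Vale.Agent.Results.P054.HomogeneousFewCollinear
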