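import Vale.Agent.Doubling.AllDim.Pinned

/-!
Pinned distinct distances for sets of small doubling, with exponent two over the dimension, in
every dimension.
-/

open Finset
open scoped Pointwise

namespace Vale.Agent.Results.P054.SmallDoublingPinnedAllDim

theorem result : ∀ d : ℕ, 2 ≤ d → ∃ C : ℕ, ∀ (P : Finset (EuclideanSpace ℝ (Fin d))) (K : ℝ),
    2 ≤ P.card →
    ((((P : Set (EuclideanSpace ℝ (Fin d))) + (P : Set (EuclideanSpace ℝ (Fin d)))).ncard : ℕ) : ℝ)
      ≤ K * P.card →
    ∀ p ∈ P, (P.card : ℝ) ^ (2 / (d : ℝ)) ≤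
      (C * K * (1 + Real.log P.card)) ^ C * (dist p '' ((P : Set _) \ {p})).ncard := by
  classical
  intro d hd
  obtain ⟨C, hC⟩ := Doubling.AllDim.pinned d hd
  refine ⟨C, fun P K hn hK p hp => ?_⟩
  rw [← coe_add, Set.ncard_coe_finset] at hK
  rw [← coe_erase, ← coe_image, Set.ncard_coe_finset]
  exact hC P K hn hK p hp

end Vale.Agent.Results.P054.SmallDoublingPinnedAllDim
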